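import Mathlib

set_option linter.all false

/-!
# P365, block F34: backward Dini lower bounds give integral inequalities; many-variable version.
-/

namespace P365F34

open Filter Topology Set MeasureTheory

/-- one variable: a backward Dini lower bound gives an integral inequality -/
theorem dini_integral {f r : ℝ → ℝ} {a b : ℝ} (hab : a ≤ b) (hf : ContinuousOn f (Icc a b))
    (hr : ContinuousOn r (Icc a b))
    (H : ∀ x ∈ Ioc a b, ∀ c < r x, ∃ᶠ h in 𝓝[>] (0 : ℝ), h * c < f (x - h) - f x) :
    ∫ x in a..b, r x ≤ f a - f b := by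
  set R : ℝ → ℝ := IccExtend hab (restrict (Icc a b) r) with hR
  have hRc : Continuous R := (continuousOn_iff_continuous_restrict.1 hr).Icc_extend'
  have hRr : ∀ x ∈ Icc a b, R x = r x := fun x hx => IccExtend_of_mem hab _ hx
  have hint : ∫ x in a..b, r x = ∫ x in a..b, R x :=
    intervalIntegral.integral_congr (fun x hx => by
      rw [uIcc_of_le hab] at hx
      exact (hRr x hx).symm)
  rw [hint]
  -- reflected functions
  set F : ℝ → ℝ := fun t => -f (-t) with hF
  set B : ℝ → ℝ := fun t => -f b - ∫ s in (-b)..t, R (-s) with hB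
  have hneg : ∀ t ∈ Icc (-b) (-a), -t ∈ Icc a b := fun t ht => ⟨by linarith [ht.2], by linarith [ht.1]⟩
  have hFc : ContinuousOn F (Icc (-b) (-a)) :=
    (hf.comp continuous_neg.continuousOn (fun t ht => hneg t ht)).neg
  have hRn : Continuous fun s : ℝ => R (-s) := hRc.comp continuous_neg
  have hBd : ∀ t, HasDerivAt B (-R (-t)) t := fun t => by
    have h1 := intervalIntegral.integral_hasDerivAt_right (hRn.intervalIntegrable (-b) t)
      (hRn.stronglyMeasurableAtFilter _ _) hRn.continuousAt
    have h2 := h1.const_sub (-f b)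
    exact h2
  have hBc : ContinuousOn B (Icc (-b) (-a)) := fun t _ => (hBd t).continuousAt.continuousWithinAt
  have key := image_le_of_liminf_slope_right_le_deriv_boundary (f := F) (a := -b) (b := -a)
    (B := B) (B' := fun t => -R (-t)) hFc (by simp [hF, hB]) hBc
    (fun t _ => (hBd t).hasDerivWithinAt) (by
      intro t ht ρ hρ
      have hx : -t ∈ Ioc a b := ⟨by linarith [ht.2], by linarith [ht.1]⟩
      have hrx : R (-t) = r (-t) := hRr _ ⟨hx.1.le, hx.2⟩
      have h1 := H (-t) hx (-ρ) (by rw [← hrx]; linarith)
      -- transfer the frequently statement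
      have hmap : Tendsto (fun h : ℝ => t + h) (𝓝[>] (0 : ℝ)) (𝓝[>] t) := by
        refine tendsto_nhdsWithin_iff.2 ⟨?_, ?_⟩
        · have : Tendsto (fun h : ℝ => t + h) (𝓝 (0 : ℝ)) (𝓝 (t + 0)) :=
            (continuous_const.add continuous_id).tendsto 0
          rw [add_zero] at this
          exact this.mono_left nhdsWithin_le_nhds
        · filter_upwards [self_mem_nhdsWithin] with h hh
          have : (0 : ℝ) < h := hh
          show t < t + h
          linarith
      refine hmap.frequently (h1.mp ?_)
      filter_upwards [self_mem_nhdsWithin] with h hh hlt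
      have hh0 : (0 : ℝ) < h := hh
      rw [slope_def_field, hF]
      have e1 : -(t + h) = -t - h := by ring
      rw [div_lt_iff₀ (by linarith)]
      simp only [e1]
      have : t + h - t = h := by ring
      rw [this]
      nlinarith)
  have h3 := key (x := -a) ⟨by linarith, le_refl _⟩
  simp only [hF, hB, neg_neg] at h3
  have h4 : ∫ s in (-b)..(-a), R (-s) = ∫ x in a..b, R x := by
    rw [intervalIntegral.integral_comp_neg]
    simp
  rw [h4] at h3
  linarith

variable {ι : Type*} [Fintype ι] [DecidableEq ι]

/-- the set of admissible absorption profiles -/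
def Prof (γ : ℝ) : Set (ι → ℝ) := {e | ∀ x, e x ∈ Ioc 0 γ}

theorem update_mem {γ : ℝ} {e : ι → ℝ} (he : e ∈ Prof γ) (y : ι) {t : ℝ} (ht : t ∈ Ioc 0 γ) :
    Function.update e y t ∈ Prof γ := by
  intro x
  by_cases hx : x = y
  · subst hx
    rwa [Function.update_self]
  · rw [Function.update_of_ne hx]
    exact he x

/-- one coordinate, constant lower bound -/
theorem one_coord {γ : ℝ} {Φ : (ι → ℝ) → ℝ} {ρ : ι → (ι → ℝ) → ℝ}
    (hΦ : ContinuousOn Φ (Prof γ))
    (H : ∀ e ∈ Prof γ, ∀ y, ∀ c < ρ y e, ∃ᶠ h in 𝓝[>] (0 : ℝ),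
      h * c < Φ (Function.update e y (e y - h)) - Φ e)
    {e : ι → ℝ} (he : e ∈ Prof γ) (y : ι) {h c : ℝ} (hh : 0 ≤ h) (hhe : h < e y)
    (hc : ∀ t ∈ Icc (e y - h) (e y), c ≤ ρ y (Function.update e y t)) :
    h * c ≤ Φ (Function.update e y (e y - h)) - Φ e := by
  have hmem : ∀ t ∈ Icc (e y - h) (e y), t ∈ Ioc (0 : ℝ) γ := fun t ht =>
    ⟨by linarith [ht.1], ht.2.trans (he y).2⟩
  have hcont : ContinuousOn (fun t => Φ (Function.update e y t)) (Icc (e y - h) (e y)) := by
    refine hΦ.comp (Continuous.continuousOn ?_) (fun t ht => update_mem he y (hmem t ht))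
    exact continuous_const.update y continuous_id
  -- for every c' < c
  have hmain : ∀ c' < c, h * c' ≤ Φ (Function.update e y (e y - h)) - Φ e := by
    intro c' hc'
    have h1 := dini_integral (f := fun t => Φ (Function.update e y t)) (r := fun _ => c')
      (a := e y - h) (b := e y) (by linarith) hcont continuousOn_const (by
        intro x hx d hd
        have hxI : x ∈ Icc (e y - h) (e y) := ⟨hx.1.le, hx.2⟩
        have h2 := H (Function.update e y x) (update_mem he y (hmem x hxI)) y d
          (hd.trans (hc'.trans_le (hc x hxI)))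
        refine h2.mono fun k hk => ?_
        simpa [Function.update_self, Function.update_idem] using hk)
    rw [intervalIntegral.integral_const, smul_eq_mul, Function.update_eq_self] at h1
    have : (e y - (e y - h)) * c' = h * c' := by ring
    rwa [this] at h1
  refine le_of_tendsto_of_tendsto' (f := fun n : ℕ => h * (c - 1 / ((n : ℝ) + 1)))
    (b := atTop) (g := fun _ => Φ (Function.update e y (e y - h)) - Φ e) ?_ tendsto_const_nhds
    (fun n => hmain _ (by
      have : (0 : ℝ) < 1 / ((n : ℝ) + 1) := by positivity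
      linarith))
  have h5 : Tendsto (fun n : ℕ => 1 / ((n : ℝ) + 1)) atTop (𝓝 0) :=
    tendsto_one_div_add_atTop_nhds_zero_nat
  have h6 := (tendsto_const_nhds (x := c)).sub h5
  rw [sub_zero] at h6
  exact h6.const_mul h

/-- the homogeneous profile lowered on a set of sites -/
def low (x h : ℝ) (S : Finset ι) : ι → ℝ := fun z => if z ∈ S then x - h else x

/-- **many coordinates**: one-site Dini bounds give the integrated inequality along the homogeneous
profiles -/
theorem multi {γ : ℝ} {Φ : (ι → ℝ) → ℝ} {ρ : ι → (ι → ℝ) → ℝ}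
    (hΦ : ContinuousOn Φ (Prof γ)) (hρ : ∀ y, ContinuousOn (ρ y) (Prof γ))
    (H : ∀ e ∈ Prof γ, ∀ y, ∀ c < ρ y e, ∃ᶠ h in 𝓝[>] (0 : ℝ),
      h * c < Φ (Function.update e y (e y - h)) - Φ e)
    {a b : ℝ} (ha : 0 < a) (hab : a ≤ b) (hb : b ≤ γ) :
    ∫ x in a..b, ∑ y, ρ y (fun _ => x) ≤ Φ (fun _ => a) - Φ (fun _ => b) := by
  have hmem : ∀ x ∈ Icc a b, (fun _ : ι => x) ∈ Prof γ := fun x hx _ =>
    ⟨ha.trans_le hx.1, hx.2.trans hb⟩
  have hcc : Continuous fun x : ℝ => (fun _ : ι => x) := continuous_pi fun _ => continuous_id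
  refine dini_integral (f := fun x => Φ (fun _ => x)) (r := fun x => ∑ y, ρ y (fun _ => x)) hab
    (hΦ.comp hcc.continuousOn (fun x hx => hmem x hx))
    (continuousOn_finset_sum _ fun y _ => (hρ y).comp hcc.continuousOn (fun x hx => hmem x hx)) ?_
  intro x hx c hc
  have hxm := hmem x ⟨hx.1.le, hx.2⟩
  have hx0 : 0 < x := ha.trans hx.1
  -- slack
  set δ : ℝ := (∑ y, ρ y (fun _ => x) - c) / (2 * (Fintype.card ι + 1)) with hδ
  have hcard : (0 : ℝ) < 2 * ((Fintype.card ι : ℝ) + 1) := by positivity
  have hδ0 : 0 < δ := div_pos (by linarith) hcard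
  -- neighbourhood
  have hnb : ∀ᶠ e in 𝓝[Prof γ] (fun _ : ι => x), ∀ y, ρ y (fun _ => x) - δ < ρ y e := by
    rw [eventually_all]
    intro y
    exact (hρ y (fun _ => x) hxm).eventually (lt_mem_nhds (by linarith))
  obtain ⟨r, hr0, hr⟩ := Metric.mem_nhdsWithin_iff.1 hnb
  have hev : ∀ᶠ h in 𝓝[>] (0 : ℝ), h < min (r / 2) x ∧ 0 < h := by
    have h1 : Iio (min (r / 2) x) ∈ 𝓝 (0 : ℝ) := Iio_mem_nhds (by positivity)
    filter_upwards [self_mem_nhdsWithin, mem_nhdsWithin_of_mem_nhds h1] with h h2 h3
    exact ⟨h3, h2⟩
  refine Eventually.frequently ?_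
  filter_upwards [hev] with h hh
  obtain ⟨hh1, hh0⟩ := hh
  have hhr : h < r / 2 := hh1.trans_le (min_le_left _ _)
  have hhx : h < x := hh1.trans_le (min_le_right _ _)
  -- induction on the set of lowered sites
  have hind : ∀ S : Finset ι, h * ∑ y ∈ S, (ρ y (fun _ => x) - δ) ≤
      Φ (low x h S) - Φ (fun _ => x) := by
    intro S
    induction S using Finset.induction_on with
    | empty =>
      have : low x h (∅ : Finset ι) = fun _ => x := by
        funext z
        simp [low]
      rw [this]
      simp
    | insert y S hy ih =>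
      have hlm : low x h S ∈ Prof γ := by
        intro z
        unfold low
        split_ifs
        · exact ⟨by linarith, by linarith [hx.2]⟩
        · exact ⟨hx0, hx.2.trans hb⟩
      have hly : low x h S y = x := by
        unfold low
        rw [if_neg hy]
      have hupd : Function.update (low x h S) y (low x h S y - h) = low x h (insert y S) := by
        funext z
        by_cases hz : z = y
        · subst hz
          rw [Function.update_self, hly]
          unfold low
          rw [if_pos (Finset.mem_insert_self _ _)]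
        · rw [Function.update_of_ne hz]
          unfold low
          simp only [Finset.mem_insert, hz, false_or]
      have h1 := one_coord hΦ H hlm y (h := h) (c := ρ y (fun _ => x) - δ) hh0.le
        (by rw [hly]; exact hhx) (by
          intro t ht
          rw [hly] at ht
          have htm : t ∈ Ioc (0 : ℝ) γ := ⟨by linarith [ht.1], by linarith [ht.2, hx.2]⟩
          have hd : Function.update (low x h S) y t ∈ Metric.ball (fun _ : ι => x) r ∩ Prof γ := by
            refine ⟨?_, update_mem hlm y htm⟩
            rw [Metric.mem_ball, dist_pi_lt_iff hr0]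
            intro z
            by_cases hz : z = y
            · subst hz
              rw [Function.update_self, Real.dist_eq, abs_lt]
              constructor <;> linarith [ht.1, ht.2]
            · rw [Function.update_of_ne hz, Real.dist_eq]
              unfold low
              split_ifs
              · rw [abs_lt]; constructor <;> linarith
              · rw [sub_self, abs_zero]; exact hr0
          exact (hr hd y).le)
      rw [hupd] at h1
      rw [Finset.sum_insert hy, mul_add]
      linarith
  have h2 := hind Finset.univ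
  have h3 : low x h (Finset.univ : Finset ι) = fun _ => x - h := by
    funext z
    simp [low]
  rw [h3, Finset.sum_sub_distrib, Finset.sum_const, Finset.card_univ, nsmul_eq_mul] at h2
  have h4 : (Fintype.card ι : ℝ) * δ < ∑ y, ρ y (fun _ => x) - c := by
    have h5 : (2 * ((Fintype.card ι : ℝ) + 1)) * δ = ∑ y, ρ y (fun _ => x) - c := by
      rw [hδ]
      field_simp
    have h6 : 0 ≤ (Fintype.card ι : ℝ) := Nat.cast_nonneg _
    nlinarith
  have h7 : h * c < h * (∑ y, ρ y (fun _ => x) - (Fintype.card ι : ℝ) * δ) :=
    mul_lt_mul_of_pos_left (by linarith) hh0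
  linarith

end P365F34
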